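import Mathlib.Analysis.SpecialFunctions.Trigonometric.Basic
import Mathlib.GroupTheory.Coxeter.Matrix

/-! P203. The space `Y` and the orbits of `W` on it, described by the words in the simple
reflections. -/

namespace Vale.Agent.P203.H36

variable {S : Type}

/-- `2 cos (π / m_st)`, and `2` if `m_st = ∞` (the entries `∞` are written as `0` in Mathlib's
Coxeter matrices). For `s = t` this is `-2`. -/
noncomputable def coef (M : CoxeterMatrix S) (s t : S) : ℝ :=
  if M s t = 0 then 2 else 2 * Real.cos (Real.pi / M s t)

/-- The simple reflection `s` acting on `V^* = ℝ^S` (dual to `α_t ↦ α_t + 2 cos (π / m_st) α_s`;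
the coordinates of `x` are its values `x t` on the simple roots `α_t`). -/
noncomputable def refl (M : CoxeterMatrix S) (s : S) (x : S → ℝ) : S → ℝ :=
  fun t => x t + coef M s t * x s

/-- The element `s₁ ⋯ s_k` of the Coxeter group `W` acting on `V^*`. -/
noncomputable def act (M : CoxeterMatrix S) : List S → (S → ℝ) → (S → ℝ)
  | [], x => x
  | s :: l, x => refl M s (act M l x)

/-- The Tits cone: the vectors which some element of `W` moves into the closed fundamental
chamber, where all coordinates are nonnegative. -/
def titsCone (M : CoxeterMatrix S) : Set (S → ℝ) := {x | ∃ l : List S, ∀ s, 0 ≤ act M l x s}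

/-- `Y`: the points `a + i b` of `V^* ⊗ ℂ` with `a` in the interior of the Tits cone which do not
lie on any complexified reflecting hyperplane; the reflecting hyperplanes are the sets of the `x`
with `(w x)_s = 0`, for `w` in `W` and `s` in `S`. -/
def Y (M : CoxeterMatrix S) : Set ((S → ℝ) × (S → ℝ)) :=
  {p | p.1 ∈ interior (titsCone M) ∧
    ∀ (l : List S) (s : S), ¬ (act M l p.1 s = 0 ∧ act M l p.2 s = 0)}

/-- `p` and `q` are in the same orbit of `W`, which acts by `w (a + i b) = w a + i w b`. -/
def SameOrbit (M : CoxeterMatrix S) (p q : Y M) : Prop :=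
  ∃ l : List S, act M l p.1.1 = q.1.1 ∧ act M l p.1.2 = q.1.2

end Vale.Agent.P203.H36
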