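import Vale.Agent.P203.Top.KPiOne
import Vale.Agent.P203.H895.Facts
import Vale.Agent.P203.H36.Defs

namespace Vale.Agent.P203.H36

variable {S : Type}

open Vale.Agent.P203

theorem act_eq (M : CoxeterMatrix S) (l : List S) (x : S → ℝ) :
    act M l x = rho M (M.toCoxeterSystem.wordProd l) x := by
  induction l with
  | nil =>
    rw [CoxeterSystem.wordProd_nil, map_one]
    rfl
  | cons s l ih =>
    rw [CoxeterSystem.wordProd_cons, rho_mul_apply, ← ih]
    have h1 : rho M (M.toCoxeterSystem.simple s) = simpleRefl M s :=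
      M.toCoxeterSystem.lift_apply_simple (simpleRefl_isLiftable M) s
    rw [h1]
    rfl

theorem exists_word (M : CoxeterMatrix S) (w : M.Group) :
    ∃ l : List S, ∀ x, rho M w x = act M l x := by
  obtain ⟨l, hl⟩ := M.toCoxeterSystem.wordProd_surjective w
  exact ⟨l, fun x => by rw [act_eq, hl]⟩

theorem titsCone_eq (M : CoxeterMatrix S) : titsCone M = Vale.Agent.P203.titsCone M := by
  ext x
  constructor
  · rintro ⟨l, hl⟩
    refine Set.mem_iUnion.mpr ⟨(M.toCoxeterSystem.wordProd l)⁻¹, act M l x, hl, ?_⟩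
    rw [act_eq, rho_inv_rho]
  · intro hx
    obtain ⟨w, y, hy, rfl⟩ := Set.mem_iUnion.mp hx
    obtain ⟨l, hl⟩ := exists_word M w⁻¹
    refine ⟨l, fun s => ?_⟩
    rw [← hl, rho_inv_rho]
    exact hy s

theorem mem_hyperplane_iff (M : CoxeterMatrix S) (w : M.Group) (s : S) (x : S → ℝ) :
    x ∈ rho M w '' {x | x s = 0} ↔ rho M w⁻¹ x s = 0 := by
  constructor
  · rintro ⟨y, hy, rfl⟩
    rw [rho_inv_rho]
    exact hy
  · intro h
    exact ⟨rho M w⁻¹ x, h, rho_rho_inv M w x⟩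

theorem Y_eq (M : CoxeterMatrix S) : Y M = complementSet M := by
  ext p
  unfold Y complementSet
  rw [Set.mem_ofPred_eq, Set.mem_ofPred_eq, titsCone_eq]
  refine and_congr_right fun _ => ?_
  constructor
  · rintro h H ⟨w, s, rfl⟩ ⟨h1, h2⟩
    obtain ⟨l, hl⟩ := exists_word M w⁻¹
    rw [mem_hyperplane_iff, hl] at h1 h2
    exact h l s ⟨h1, h2⟩
  · rintro h l s ⟨h1, h2⟩
    refine h _ ⟨(M.toCoxeterSystem.wordProd l)⁻¹, s, rfl⟩ ⟨?_, ?_⟩
    · rw [mem_hyperplane_iff, inv_inv, ← act_eq]; exact h1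
    · rw [mem_hyperplane_iff, inv_inv, ← act_eq]; exact h2

theorem transport {α : Type} [TopologicalSpace α] (A B : Set α) (hAB : A = B)
    (r : A → A → Prop) (s : Setoid B)
    (h : ∀ a b : A, r a b ↔ s.r ⟨a.1, hAB ▸ a.2⟩ ⟨b.1, hAB ▸ b.2⟩) (n : ℕ)
    (H : ∀ x : Quotient s, Subsingleton (HomotopyGroup (Fin n) (Quotient s) x)) (x : Quot r) :
    Subsingleton (HomotopyGroup (Fin n) (Quot r) x) := by
  subst hAB
  have hr : r = s.r := by
    funext a b
    exact propext (h a b)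
  subst hr
  exact H x

theorem main [Finite S] (M : CoxeterMatrix S) (n : ℕ) (hn : 2 ≤ n)
    (x : Quot (SameOrbit M)) : Subsingleton (HomotopyGroup (Fin n) (Quot (SameOrbit M)) x) := by
  refine transport (Y M) (complementSet M) (Y_eq M) (SameOrbit M)
    (MulAction.orbitRel M.Group (complementSet M)) (fun p q => ?_) n
    (fun y => KPi.main M (Dg.H895.twistFacts _ _) hn y) x
  show SameOrbit M p q ↔ (⟨p.1, _⟩ : complementSet M) ∈ MulAction.orbit M.Group (⟨q.1, _⟩ : complementSet M)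
  constructor
  · rintro ⟨l, h1, h2⟩
    refine ⟨(M.toCoxeterSystem.wordProd l)⁻¹, Subtype.ext (Prod.ext ?_ ?_)⟩
    · show rho M _ q.1.1 = p.1.1
      rw [← h1, act_eq, rho_inv_rho]
    · show rho M _ q.1.2 = p.1.2
      rw [← h2, act_eq, rho_inv_rho]
  · rintro ⟨w, hw⟩
    obtain ⟨l, hl⟩ := exists_word M w⁻¹
    have h1 : rho M w q.1.1 = p.1.1 := congrArg (fun z : complementSet M => z.1.1) hw
    have h2 : rho M w q.1.2 = p.1.2 := congrArg (fun z : complementSet M => z.1.2) hw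
    refine ⟨l, ?_, ?_⟩
    · rw [← hl, ← h1, rho_inv_rho]
    · rw [← hl, ← h2, rho_inv_rho]

end Vale.Agent.P203.H36
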